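import Vale.Agent.P236SY.Final

/-!
# P236: level 14, the descent

Modulo classes which are killed by `T = τ ^ 4`, a class of stem 322 and filtration 14 of the Moore
spectrum is detected by `β ^ 4 K` with `v_1 K = 0`. Then `K` can be changed to a permanent cycle
which vanishes on the bottom cell of `Y`, and the relations of Toda apply.
-/

open CategoryTheory MonoidalCategory Limits Pretriangulated MonObj

namespace Vale.Agent.P236SY

open GData Vale.Agent.P251 Vale.Agent.P251.T Vale.Agent.P251.S Vale.Agent.P251.H Vale.Agent.P251.M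
  Vale.Agent.P251.F Vale.Agent.P251.I TD Vale.Agent.P236EL Vale.Agent.P236F Vale.Agent.P236R
  Vale.Agent.P236Z
open Vale.Agent.P251.St (SHCat)

variable {T : SHCat} (t : Cob Laz 1) {C : Cx T}

/-- the product with `v_1` -/
noncomputable abbrev lv {J : Type} (s : ℕ) : (J → Cob Laz s) →+ (J → Cob Laz s) :=
  lc J (zero_add s) v1

/-- the product with `β ^ 4` in degree six -/
noncomputable abbrev lb4 {J : Type} (K : J → Cob Laz 6) : J → Cob Laz 14 :=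
  lb t 12 rfl (lb t 10 rfl (lb t 8 rfl (lb t 6 rfl K)))

/-- The facts about the cohomology which are used in the descent. -/
structure LF : Prop where
  /-- stem 282: the kernel of `v_1` vanishes on the bottom cell of `Y` -/
  k282 : ∀ K ∈ ZS 72 6, lv 6 K ∈ BS 73 6 → ![K 0, 0, 0] ∈ BY t 72 6
  /-- stem 281: `α β` times the kernel of `v_1` does not meet the top cell of stem 302 of `Y` -/
  k281 : ∀ L ∈ ZS 73 11, lv 11 L ∈ BS 74 11 → ∀ G ∈ ZY t 79 14,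
    ((fun _ => G 2) - lb t 12 rfl (Cx.CY.cal t L)) ∈ BS 77 14 → G ∈ BY t 79 14

variable (C) in
/-- Stem 322 is generated by targets of `d_5`, by the `β ^ 4 K` with `v_1 K = 0` and by the top cell
of stem 330 of `Y`. -/
def R3 : Prop := ∀ F ∈ ZS 84 14, ∃ H G, ∃ K ∈ ZS 72 6, ∃ z ∈ ZY t 86 14,
  C.DM 3 9 14 83 84 H G ∧ lv 6 K ∈ BS 73 6 ∧ (F - G - lb4 t K - fun _ => z 2) ∈ BS 84 14

variable {t}

namespace Cx.CY

variable (P : C.CY t) {s r : ℕ} {n l w v : ℤ}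

theorem ob_lb {y : C.o C.Γ ⟶ C.oM} {F : Fin 1 → Cob Laz s}
    (hy : C.E.Ob n s (C.psi (mE C.eS) s F) y) (h : 2 + s = r) (hl : 10 + n = l) :
    C.E.Ob l r (C.psi (mE C.eS) r (lb t s h F)) (P.β ≫ y) := by
  have h1 := ob_pre P.rep_β hy h hl
  rwa [Int.negOnePow_even _ (Even.mul_right (by decide) _), one_smul] at h1

include P in
theorem by_jy {G : Fin 3 → Cob Laz s} (hG : G ∈ BY t w s) (e : w + -2 = v) :
    (fun _ => G 2) ∈ BS v s := by
  have h1 := P.rep_jy (n := 4 * w - s) (P.chY.cm.cb hG (by ring)).rep rfl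
  rw [zero_comp] at h1
  exact cmS.by_of_zero h1 (cw_top (P.chY.cm.cw_of_by hG) 2 e) (by omega)

variable (ht : IsT1 3 t) (h : KF t)
include ht h

/-- A class of stem 282 whose cocycle vanishes on the bottom cell vanishes there. -/
theorem e0_zero {m : C.o C.Γ ⟶ C.oM} {F : Fin 1 → Cob Laz 6}
    (hm : C.E.Rep 282 6 m (C.psi (mE C.eS) 6 F)) (h0 : ![F 0, 0, 0] ∈ BY t 72 6) :
    m ≫ P.e0 = 0 := by
  obtain ⟨z, hz, e'⟩ := P.chY.cm.div4 (w := 72) (P.rep_e0 hm) h0 rfl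
  obtain ⟨y, hy, e₁⟩ := P.chY.cm.div_of_tor (s := 5) (s' := 10) (w := 71) (w' := 72)
    (hz.comp P.dg_pp rfl rfl)
    (by rw [Category.assoc, ← tp_comm, ← reassoc_of% e', e0_pp, comp_zero]) rfl rfl rfl
    (P.d279 ht h)
  rw [P.z0_Z₀ ht h.vh (by decide) y hy, zero_comp] at e₁
  obtain ⟨y, hy, e₂⟩ := P.div_of_pp (s := 10) (w := 73) hz rfl e₁ rfl h.p282
  rw [e', e₂, P.z0_Z₀ ht h.vh (by decide) y hy, zero_comp, zero_comp]

/-- A class of stem 281 which is killed by `β ^ 4` comes from the top cell of `Y`. -/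
theorem top281 (hK : P.KZ) {y : C.o C.Γ ⟶ C.oM} {L : Fin 1 → Cob Laz 11}
    (hy : C.E.Rep 281 11 y (C.psi (mE C.eS) 11 L)) (hZ : L ∈ ZS 73 11) (hL : ∀ G ∈ ZY t 79 14,
      ((fun _ => G 2) - lb t 12 rfl (cal t L)) ∈ BS 77 14 → G ∈ BY t 79 14)
    (h0 : P.β ≫ P.β ≫ P.β ≫ P.β ≫ y = 0) : ∃ z, C.E.Dg 289 11 z ∧ y = z ≫ P.jy := by
  have d1 : C.E.Dg 291 13 (P.β ≫ y) := P.dg_β.comp hy.dg rfl rfl
  have d2 : C.E.Dg 301 15 (P.β ≫ P.β ≫ y) := P.dg_β.comp d1 rfl rfl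
  obtain ⟨z, hz, e⟩ := P.β_ker d1 (P.β_inj d2 hK.z309 hK.z312
    (P.β_inj (n := 311) (s := 17) (P.dg_β.comp d2 rfl rfl) hK.z319 hK.z322 h0)) rfl rfl
  obtain ⟨G, hG, h1⟩ := P.chY.cm.exists_rep (s := 14) (w := 79) hz rfl
  have h2 := P.rep_lb (P.rep_al hy (l := 284) rfl) (r := 14) (l := 294) rfl rfl
  have h3 := (P.rep_jy h1 (l := 294) rfl).usmul (((11 : ℕ) : ℤ) * 3).negOnePow
  rw [← qq_jA, ← reassoc_of% e, atil_jA, ← Linear.comp_units_smul, Units.smul_def _ (C.psi _ _ _),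
    ← map_zsmul] at h3
  have h4 := zsmul_mem (hL _ (zsmul_mem hG _) (cmS.rep_uniq (w := 77) h3 h2
    (zsmul_mem (cw_top hG.1 2 rfl) _) (lc_mem_CW _ (of_zs (zs_bb ht)).1
      (cw_al ht (w := 74) rfl L hZ.1)) rfl)) (((11 : ℕ) : ℤ) * 3).negOnePow
  rw [smul_smul, ← Units.val_mul, Int.units_mul_self, Units.val_one, one_smul] at h4
  rw [P.chY.cm.zero_of h1 h4 rfl (P.z0_Z₀ ht h.vh (by decide)), zero_comp] at e
  obtain ⟨z, hz, e₁⟩ := P.of_jy (m := 299) d1 e rfl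
  obtain ⟨a, -, -, rfl⟩ := hK.l299 z hz
  rw [Category.assoc, P.sE.zero₁, comp_zero] at e₁
  obtain ⟨z, hz, e₂⟩ := P.β_ker hy.dg e₁ rfl rfl
  obtain ⟨y', hy', e₃⟩ := P.div_of_pp (s := 12) (w := 76) hz rfl
    (by rw [← reassoc_of% e₂, P.sE.zero₃, comp_zero]) rfl h.p292
  rw [e₃, P.z0_Z₀ ht h.vh (by decide) y' hy', zero_comp, zero_comp] at e₂
  exact P.of_jy hy.dg e₂ rfl

/-- Division by `β ^ 4`. -/
theorem div282 (hL : LF t) (hK : P.KZ) {K : Fin 1 → Cob Laz 6} (h1 : K ∈ ZS 72 6)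
    (h2 : lv 6 K ∈ BS 73 6) {x : C.o C.Γ ⟶ C.oM}
    (hx : C.E.Rep 322 14 x (C.psi (mE C.eS) 14 (lb4 t K))) : ∃ m y, C.E.Dg 282 6 m ∧
      m ≫ P.e0 = 0 ∧ C.E.Dg 322 18 y ∧ x = P.β ≫ P.β ≫ P.β ≫ P.β ≫ m + y ≫ C.E.tp 4 _ := by
  obtain ⟨L, hd⟩ := (cmS (C := C)).exists_d5 h1 (s' := 11) (w' := 73) rfl rfl
  obtain ⟨v, hv⟩ := exists_v (C := C) ht
  have h3 := cmS.d5_by (hd.lc_perm mc_zero hv (zs_v1 ht) rfl (zero_add 6) (zero_add 11)
    (v := 73) (v' := 74) (by decide) rfl rfl) h2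
  rw [pow_zero, one_smul] at h3
  obtain ⟨y, h4, h5⟩ := hd.ex' (n := 282) (m := 281) rfl rfl
  have h6 := (P.ob_lb (P.ob_lb (P.ob_lb (P.ob_lb h4 (r := 8) (l := 292) rfl rfl) (r := 10)
    (l := 302) rfl rfl) (r := 12) (l := 312) rfl rfl) (r := 14) (l := 322) rfl rfl).uniq hx.ob
      (a := 0) (by rw [sub_self]; exact cb_zero _ _)
  obtain ⟨z, hz, rfl⟩ := P.top281 ht h hK h5 hd.cy' (hL.k281 L hd.cy' h3) (cmS.tp3_inj (w := 85)
    (P.dg_β.comp (P.dg_β.comp (P.dg_β.comp (P.dg_β.comp h5.dg rfl rfl) rfl rfl) rfl rfl) rfl rfl)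
    rfl (by simpa only [Category.assoc] using h6))
  obtain ⟨G, hG, h7⟩ := P.chY.cm.exists_of_τ (n := 290) (s := 6) (w := 74)
    (hz.comp (C.E.dg_tp 3 _) rfl rfl) (by rw [Category.assoc, ← tp_succ, hK.t289 z hz]) rfl rfl rfl
  have h8 := h4.sub (ob_wr (m := -8) P.st₂.deg₂ (by decide) (P.psi_p₂ G) h7 (l := 282) rfl)
  rw [Category.assoc, Category.assoc, tp_comm, sub_self, ← map_sub] at h8
  obtain ⟨m, hm⟩ := h8.rep
  have h9 := P.by_jy (P.lc_kill ht (zs_bb ht) (h.vh _ _ (by decide)) (h.vh _ _ (by decide))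
    (h.vh _ _ (by decide)) hG (show 2 + 6 = 8 from rfl) rfl) (v := 75) rfl
  obtain ⟨y, hy, e⟩ := cmS.eq_add4 (w := 84) hx (P.rep_lb (P.rep_lb (P.rep_lb (P.rep_lb hm
    (r := 8) (l := 292) rfl rfl) (r := 10) (l := 302) rfl rfl) (r := 12) (l := 312) rfl rfl)
      (r := 14) (l := 322) rfl rfl) (by
    rw [map_sub, map_sub, map_sub, map_sub, sub_sub_cancel]
    exact lbB ht mc_zero _ (w := 81) rfl (lbB ht mc_zero _ (w := 78) rfl
      (lbB ht mc_zero _ (w := 75) rfl h9))) rfl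
  refine ⟨m, y, hm.dg, P.e0_zero ht h hm ?_, hy, e⟩
  convert sub_mem (hL.k282 K h1 h2) (h.p290 G hG) using 1
  ext c
  fin_cases c <;> simp

/-- Level 14. -/
theorem l14 (hA : P236K.EA) (hR : FR t) (hX : FX t) (h330 : F330 t) (hL : LF t) (hK : P.KZ)
    (h3 : R3 t C) : C.L14 := fun x hx => by
  obtain ⟨F, hF, h1⟩ := cmS.exists_rep (s := 14) (w := 84) hx rfl
  obtain ⟨H, G, K, hK', z, hz, hd, h2, h4⟩ := h3 F hF
  obtain ⟨a, ha, h5⟩ := hd.tor (m := 322) rfl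
  obtain ⟨b, hb⟩ := P.chY.cm.exists_rep_of (n := 330) hz rfl (P.z0_Z₀ ht h.vh (by decide))
  have h6 := (h1.sub ha).sub (P.rep_jy hb rfl)
  rw [← map_sub, ← map_sub] at h6
  obtain ⟨m, y, hm, h7, hy, e⟩ := P.div282 ht h hL hK hK' h2 (cmS.rep_congr (w := 84) h6
    (by convert neg_mem h4 using 1; abel) rfl)
  obtain ⟨x₄, c, h8⟩ := exists_grk 0 4
  obtain ⟨ε, Q, k, h9⟩ := P.toda ht hA hX h8
  obtain ⟨a', b', hb', rfl, e'⟩ := hK.second hm h7
  have h10 : Kill (Q ≫ P.jy) 272 4 := h9.kill (s := 4) (w := 69) rfl rfl rfl rfl rfl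
    (fun F hF => h330.k272 h8 F hF (by
      rw [← lc_lc (zero_add 2) (show 2 + 4 = 6 from rfl)]
      exact P.lc_kill ht (zs_cupE _ (zs_v1 ht) (w' := 16) rfl (h8.zc (ω := 15) rfl)) h330.v62
        h330.v66 h330.v70 hF _ rfl)) ((P.z0_330 ht hA hR h.vh h330).kill _)
  have h11 := P.lemK ht hA hR h.vh h330 hX hK y hy
  rw [C.E.tp_add 4 8] at h11
  rw [sub_sub, sub_eq_iff_eq_add] at e
  rw [e, Preadditive.add_comp, Preadditive.add_comp, Preadditive.add_comp, Category.assoc y, h11,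
    C.E.tp_add 4 4, reassoc_of% h5, Category.assoc b, ← C.E.tp_comm_assoc 4 P.jy,
    reassoc_of% P.r3 ht hA hR hb.dg]
  simp only [Category.assoc, zero_comp, add_zero]
  rw [reassoc_of% h9.three, reassoc_of% e', h9.four, Preadditive.comp_zsmul,
    Preadditive.comp_zsmul, ← Category.assoc, h10 _ (hb'.comp P.sE.dg₁ rfl rfl), smul_zero]

end Cx.CY

end Vale.Agent.P236SY
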