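import Vale.Agent.P236EL.Cm
import Vale.Agent.P236JG.Base
import Vale.Agent.P236JT.Ck
import Vale.Agent.P236LL.Desc

/-!
# P236: the cohomological facts of the descent
-/

noncomputable section

namespace Vale.Agent.P236SY

open Vale.Agent.P251.F Vale.Agent.P251.I Vale.Agent.P236EL Vale.Agent.P236R
open Vale.Agent.P236KE Vale.Agent.P236K3 Vale.Agent.P236F AddSubgroup Vale.Agent.P236KE.S90
open Vale.Agent.P236JG Vale.Agent.P236JT Vale.Agent.P236JX

variable [hp : Fact (Nat.Prime 3)] {t : Cob Laz 1} (ht : IsT1 3 t)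

include ht

theorem lf_281 : ∀ L ∈ ZS 73 11, lv 11 L ∈ BS 74 11 → ∀ G ∈ ZY t 79 14,
    ((fun _ => G 2) - lb t 12 rfl (Cx.CY.cal t L)) ∈ BS 77 14 → G ∈ BY t 79 14 := by
  have H := wS 79 (by decide)
  have HY := wY ht 79 (by decide)
  refine Al.all (R := rS) (T := 73) ?_
  refine H.stepA [[⟨29, 0, 0, 0, 0, 1⟩], [⟨30, 0, 0, 0, 0, 1⟩]] (by decide +kernel)
    (H.sd (by decide) fun _ _ h hc hx => (H.ne (T := 74) (k := 1)
      (H.v1 ht _ h) (.refl (by decide)) hc hx).elim) (by decide +kernel) fun L hL _ => ?_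
  refine Al.all (R := rY) (T := 79) ?_
  exact HY.stepA [[⟨87, 0, 0, 0, 0, 1⟩]] (by decide +kernel)
    (HY.sd (by decide) fun _ _ h hc hx => (H.ne (T := 77) (k := 0) (H.sub (CY.jy (by decide) h)
      (H.bm ht rfl (CS.al ht (by decide) (H.nm' (l := []) hL (by decide))))) (.refl le_rfl)
        hc hx).elim) (by decide +kernel) (HY.topA (by decide +kernel) fun _ h _ => h)

theorem inj282 (h : HK) : ∀ G ∈ ZY t 72 6, lv 6 G ∈ BY t 73 6 → G ∈ BY t 72 6 := by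
  have H := wY ht 72 (by decide)
  have J := wxY h ht
  refine Al.all (R := rY) (T := 72) ?_
  exact H.skipA (b := 9) (by decide +kernel) (H.stepA [[⟨0, 0, 6, 3, 0, 1⟩, ⟨3, 2, 4, 3, 0, 1⟩,
    ⟨6, 4, 2, 3, 0, 1⟩, ⟨99, 0, 9, 0, 0, 2⟩, ⟨14, 1, 8, 0, 0, 1⟩]] (by decide +kernel)
    (fun m x hc hx hb => (((cv_old (J.cx.ok 6) (nrY 6) le_rfl (by decide)
      (iT_eq 72 90 3 ▸ hx)).v1 J ht _).neJ J (T := 73) (c2 := [(3, 3), (0, 11)]) hc
      (by rw [degY]; exact hb)).elim) (by decide +kernel)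
        (H.topA (by decide +kernel) fun _ h _ => h))

/-- **the facts of the descent** -/
theorem lf (h : HK) : LF t where
  k281 := lf_281 ht
  k282 K h1 h2 := by
    have h3 : ![K 0, 0, 0] ∈ ZY t 72 6 := ((Mp.e0 (t := t) (T := 72)).f ⟨K, h1⟩).2
    have h4 : ![lv 6 K 0, 0, 0] ∈ BY t 73 6 := (Mp.e0 (t := t) (T := 73)).hb
      ⟨lv 6 K, lcZ mc_zero _ (zs_v1 ht) (w := 72) (w' := 73) rfl h1⟩ h2
    refine inj282 ht h _ h3 (cast (congrArg (· ∈ BY t 73 6) (funext fun c => ?_)) h4)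
    have h5 := (cupH (zero_add 6) v1).map_zero.symm
    fin_cases c
    exacts [rfl, h5, h5]

end Vale.Agent.P236SY

end
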